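import Vale.Agent.P283.M647.C1

/-!
C2. The lower bound for complete books.
-/

set_option linter.all false

namespace Vale.Agent.P283.M647.H425

open Vale.Agent.P283.T647 (psum fval Triv)
open Vale.Agent.P283.A647 (Mt)
open Vale.Agent.P283.M647.C1 (ratio_le psum_eq sum_put psum_put)

section

variable {P ι : Type} [Fintype P] [DecidableEq P] [Fintype ι] {pg : ι → Option P} {s : ι → ℕ}

open Classical in
/-- The raised coefficients. -/
noncomputable def cR (pg : ι → Option P) (s : ι → ℕ) (c : ι → ℝ) (T : Finset P) (l : P → ι)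
    (up : P → ℝ) (j : ι) : ℝ :=
  c j + ∑ p ∈ T, if l p = j then (up p - psum pg s c p) / s (l p) else 0

theorem cR_sum (c : ι → ℝ) (T : Finset P) (l : P → ι) (up : P → ℝ) (F : ι → ℝ) :
    ∑ j, cR pg s c T l up j * F j =
      ∑ j, c j * F j + ∑ p ∈ T, (up p - psum pg s c p) / s (l p) * F (l p) := by
  unfold cR
  simp only [add_mul, Finset.sum_add_distrib]
  congr 1
  exact sum_put T l (fun p => (up p - psum pg s c p) / s (l p)) F

theorem cR_psum (hpos : ∀ j p, pg j = some p → 0 < s j) (c : ι → ℝ) (T : Finset P) (l : P → ι)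
    (hl : ∀ p ∈ T, pg (l p) = some p) (up : P → ℝ) (hup : ∀ p, p ∉ T → up p = psum pg s c p)
    (p : P) : psum pg s (cR pg s c T l up) p = up p := by
  classical
  have h1 : psum pg s (cR pg s c T l up) p = psum pg s c p + psum pg s (fun j =>
      ∑ p' ∈ T, if l p' = j then (fun p => up p - psum pg s c p) p' / s (l p') else 0) p := by
    rw [psum_eq, psum_eq, psum_eq, ← Finset.sum_add_distrib]
    refine Finset.sum_congr rfl fun j _ => ?_
    unfold cR
    rw [← add_mul]
  rw [h1, psum_put hpos T l hl]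
  split_ifs with h
  · ring
  · rw [hup p h, add_zero]

theorem cR_nonneg {c : ι → ℝ} (hc : ∀ j, 0 ≤ c j) (T : Finset P) (l : P → ι) {up : P → ℝ}
    (hup : ∀ p, psum pg s c p ≤ up p) (j : ι) : 0 ≤ cR pg s c T l up j := by
  classical
  unfold cR
  refine add_nonneg (hc j) (Finset.sum_nonneg fun p _ => ?_)
  split_ifs
  · exact div_nonneg (sub_nonneg.2 (hup p)) (Nat.cast_nonneg _)
  · exact le_rfl

theorem psum_nonneg {c : ι → ℝ} (hc : ∀ j, 0 ≤ c j) (p : P) : 0 ≤ psum pg s c p := by
  unfold psum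
  refine Finset.sum_nonneg fun j _ => ?_
  split_ifs
  · exact mul_nonneg (hc j) (Nat.cast_nonneg _)
  · exact le_rfl

theorem psum_zero {c : ι → ℝ} {p : P} (h : ∀ j, pg j = some p → c j = 0) :
    psum pg s c p = 0 := by
  unfold psum
  refine Finset.sum_eq_zero fun j _ => ?_
  split_ifs with h1
  · rw [h j h1, zero_mul]
  · rfl

/-- The largest basis in `𝒬`. -/
theorem exists_max {n : ℕ} {𝓑 : Finset (Finset P)} {C : Finset P → P → Finset P}
    (hM : IsMat n 𝓑 C) (𝒬 : Finset P) (h : ∃ B ∈ 𝓑, B ⊆ 𝒬) (S : P → ℝ) :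
    ∃ B ∈ 𝓑, B ⊆ 𝒬 ∧ ∀ p ∈ 𝒬, ∀ b ∈ C B p, S p ≤ S b := by
  classical
  obtain ⟨B₀, hB₀, hB₀Q⟩ := h
  obtain ⟨B, hB, hmax⟩ := Finset.exists_max_image (𝓑.filter fun B => B ⊆ 𝒬)
    (fun B => ∑ p ∈ B, S p) ⟨B₀, Finset.mem_filter.2 ⟨hB₀, hB₀Q⟩⟩
  obtain ⟨hBB, hBQ⟩ := Finset.mem_filter.1 hB
  refine ⟨B, hBB, hBQ, ?_⟩
  intro p hp b hb
  by_cases hpB : p ∈ B
  · rw [hM.self B hBB p hpB, Finset.mem_singleton] at hb
    rw [hb]
  · have hbB := hM.sub B hBB p hb
    have h1 := hM.exch B hBB p b hb
    have h2 := hmax (insert p (B.erase b)) (Finset.mem_filter.2 ⟨h1, by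
      intro x hx
      rcases Finset.mem_insert.1 hx with h | h
      · rw [h]; exact hp
      · exact hBQ (Finset.mem_erase.1 h).2⟩)
    have h3 : p ∉ B.erase b := fun h => hpB (Finset.mem_erase.1 h).2
    have h4 := Finset.add_sum_erase B S hbB
    rw [Finset.sum_insert h3] at h2
    linarith

end

/-- C2. -/
theorem c2 : FullIneq := by
  classical
  intro P ι _ _ _ k g q δ 𝓑 C pg s w κ hB hall 𝒬 W hR p₀ hp₀ c hc hcQ hint b hb hne
  obtain ⟨B, hBB, hBQ, hmax⟩ := exists_max hB.mat 𝒬 hR.bas (psum pg s c)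
  refine ⟨B, hBB, hBQ, ?_⟩
  -- the raised totals
  obtain ⟨up, hup⟩ : ∃ up : P → ℝ, ∀ p, (∀ b ∈ C B p, up p ≤ psum pg s c b) ∧
      ∃ b ∈ C B p, up p = psum pg s c b := by
    refine ⟨fun p => (C B p).inf' (hB.mat.nz B hBB p) (psum pg s c), fun p => ⟨?_, ?_⟩⟩
    · intro b hb
      exact Finset.inf'_le _ hb
    · obtain ⟨b, hb, h⟩ := Finset.exists_mem_eq_inf' (hB.mat.nz B hBB p) (psum pg s c)
      exact ⟨b, hb, h⟩
  have hout : ∀ p, p ∉ 𝒬 → psum pg s c p = 0 := fun p hp => psum_zero fun j hj => hcQ j p hj hp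
  have hupB : ∀ p ∈ B, up p = psum pg s c p := by
    intro p hp
    obtain ⟨b, hb, h⟩ := (hup p).2
    rw [hB.mat.self B hBB p hp, Finset.mem_singleton] at hb
    rw [h, hb]
  have hle : ∀ p, psum pg s c p ≤ up p := by
    intro p
    obtain ⟨b, hb, h⟩ := (hup p).2
    by_cases hp : p ∈ 𝒬
    · rw [h]
      exact hmax p hp b hb
    · rw [hout p hp, h]
      exact psum_nonneg hc b
  have hAd : Ad C B up := by
    intro p
    refine ⟨fun b hb => ?_, ?_⟩
    · rw [hupB b (hB.mat.sub B hBB p hb)]
      exact (hup p).1 b hb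
    · obtain ⟨b, hb, h⟩ := (hup p).2
      exact ⟨b, hb, by rw [hupB b (hB.mat.sub B hBB p hb)]; exact h⟩
  -- the raised coefficients
  have key : ∀ l : P → ι, (∀ p, pg (l p) = some p) →
      (∀ j, 0 ≤ cR pg s c Finset.univ l up j) ∧
      psum pg s (cR pg s c Finset.univ l up) = up ∧
      vl q pg s κ 𝒬 c B = vl q pg s κ Finset.univ (cR pg s c Finset.univ l up) B +
        ∑ p, (up p - psum pg s c p) * (q - (κ (l p) : ℝ) / s (l p)) := by
    intro l hl
    have h1 : psum pg s (cR pg s c Finset.univ l up) = up := by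
      funext p
      exact cR_psum hB.pos c Finset.univ l (fun p _ => hl p) up
        (fun p hp => absurd (Finset.mem_univ p) hp) p
    refine ⟨cR_nonneg hc Finset.univ l hle, h1, ?_⟩
    unfold vl
    rw [cR_sum, h1]
    have h2 : ∑ p ∈ 𝒬 \ B, psum pg s c p = ∑ p ∈ Finset.univ \ B, psum pg s c p := by
      refine Finset.sum_subset (Finset.sdiff_subset_sdiff (Finset.subset_univ _) le_rfl) ?_
      intro p hp hp'
      refine hout p fun h => hp' (Finset.mem_sdiff.2 ⟨h, (Finset.mem_sdiff.1 hp).2⟩)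
    have h3 : ∑ p, (up p - psum pg s c p) = ∑ p ∈ Finset.univ \ B, (up p - psum pg s c p) := by
      refine (Finset.sum_subset (Finset.subset_univ _) ?_).symm
      intro p _ hp
      have hpB : p ∈ B := by
        by_contra h
        exact hp (Finset.mem_sdiff.2 ⟨Finset.mem_univ _, h⟩)
      rw [hupB p hpB, sub_self]
    have h4 : ∑ p, (up p - psum pg s c p) * ((q : ℝ) - (κ (l p) : ℝ) / s (l p)) =
        q * ∑ p, (up p - psum pg s c p) -
          ∑ p, (up p - psum pg s c p) / s (l p) * κ (l p) := by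
      rw [Finset.mul_sum, ← Finset.sum_sub_distrib]
      refine Finset.sum_congr rfl fun p _ => ?_
      ring
    rw [h4, h3, h2, Finset.sum_sub_distrib]
    ring
  have hgain : ∀ l : P → ι, (∀ p, pg (l p) = some p) → ∀ p,
      0 ≤ (up p - psum pg s c p) * ((q : ℝ) - (κ (l p) : ℝ) / s (l p)) := by
    intro l hl p
    refine mul_nonneg (sub_nonneg.2 (hle p)) (sub_nonneg.2 ?_)
    have hs := hB.pos (l p) p (hl p)
    have hκ := hB.κq (l p)
    have hs' : (1 : ℝ) ≤ s (l p) := by exact_mod_cast hs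
    have hκ' : (κ (l p) : ℝ) ≤ q := by exact_mod_cast hκ
    rw [div_le_iff₀ (by linarith)]
    have hq0 : (0 : ℝ) ≤ q := by positivity
    nlinarith
  obtain ⟨l₀, hl₀⟩ : ∃ l : P → ι, ∀ p, pg (l p) = some p := ⟨fun p => (hall p).choose,
    fun p => (hall p).choose_spec⟩
  have hintu : ∀ p ∈ 𝒬, ∀ p', ∃ n : ℤ, up p' - psum pg s c p = n := by
    intro p hp p'
    obtain ⟨b', hb', h⟩ := (hup p').2
    rw [h]
    exact hint b' (hBQ (hB.mat.sub B hBB p' hb')) p hp
  by_cases hcase : ∃ p₁ ∈ 𝒬, ¬ Triv q pg s κ p₁ ∧ psum pg s c p₁ < up p₁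
  · obtain ⟨p₁, hp₁, hnt, hlt⟩ := hcase
    unfold Triv at hnt
    push Not at hnt
    obtain ⟨j, hj, hj'⟩ := hnt
    have hl : ∀ p, pg (Function.update l₀ p₁ j p) = some p := by
      intro p
      by_cases h : p = p₁
      · subst h
        rw [Function.update_self]
        exact hj
      · rw [Function.update_of_ne h]
        exact hl₀ p
    obtain ⟨h1, h2, h3⟩ := key _ hl
    have h4 := hB.nn _ h1 B hBB (by rw [h2]; exact hAd)
    obtain ⟨n, hn⟩ := hintu p₁ hp₁ p₁
    have hn1 : (1 : ℝ) ≤ up p₁ - psum pg s c p₁ := by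
      have h5 : (0 : ℝ) < n := by rw [← hn]; linarith
      have h6 : 1 ≤ n := by
        have : 0 < n := by exact_mod_cast h5
        omega
      rw [hn]
      exact_mod_cast h6
    have h5 : (1 / 2 : ℝ) ≤ ∑ p, (up p - psum pg s c p) *
        ((q : ℝ) - (κ (Function.update l₀ p₁ j p) : ℝ) / s (Function.update l₀ p₁ j p)) := by
      refine le_trans ?_ (Finset.single_le_sum (fun p _ => hgain _ hl p) (Finset.mem_univ p₁))
      rw [Function.update_self]
      have h6 := ratio_le (hB.pos j p₁ hj) (hB.κq j) hB.q0 (fun h => hj' h.1 h.2)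
      nlinarith
    rw [h3]
    refine (min_le_right _ _).trans ?_
    linarith
  · push Not at hcase
    -- all raised pages are trivial
    have htr : ∀ p ∈ 𝒬, psum pg s c p < up p → Triv q pg s κ p := by
      intro p hp h
      by_contra h'
      exact absurd h (not_lt.2 (hcase p hp h'))
    obtain ⟨n, hn⟩ : ∃ n : P → ℤ, ∀ p, (p ∈ 𝒬 → up p - psum pg s c p = n p) ∧
        (p ∉ 𝒬 → up p - psum pg s c p₀ = n p) := by
      have : ∀ p, ∃ m : ℤ, (p ∈ 𝒬 → up p - psum pg s c p = m) ∧
          (p ∉ 𝒬 → up p - psum pg s c p₀ = m) := by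
        intro p
        by_cases hp : p ∈ 𝒬
        · obtain ⟨m, hm⟩ := hintu p hp p
          exact ⟨m, fun _ => hm, fun h => absurd hp h⟩
        · obtain ⟨m, hm⟩ := hintu p₀ hp₀ p
          exact ⟨m, fun h => absurd h hp, fun _ => hm⟩
      choose n hn using this
      exact ⟨n, hn⟩
    have hval : ∀ l : P → ι, (∀ p, pg (l p) = some p) →
        ((∃ p p', up p ≠ up p') ∨ (fun i => b i + ∑ p, n p * w (l p) i) ≠ 0) →
        δ ≤ vl q pg s κ 𝒬 c B := by
      intro l hl hne'
      obtain ⟨h1, h2, h3⟩ := key l hl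
      have h4 : ∀ p, (up p - psum pg s c p) * ((q : ℝ) - (κ (l p) : ℝ) / s (l p)) = 0 := by
        intro p
        by_cases hp : p ∈ 𝒬
        · rcases (hle p).lt_or_eq with h | h
          · obtain ⟨h5, h6⟩ := htr p hp h (l p) (hl p)
            rw [h5, h6]
            simp
          · rw [h, sub_self, zero_mul]
        · obtain ⟨h5, h6⟩ := (hR.out p hp).1 (l p) (hl p)
          rw [h5, h6]
          simp
      rw [Finset.sum_eq_zero fun p _ => h4 p, add_zero] at h3
      rw [h3]
      refine hB.lc _ h1 B hBB (by rw [h2]; exact hAd) ?_ (fun i => b i + ∑ p, n p * w (l p) i) ?_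
        (by rw [h2]; exact hne')
      · rw [h2]
        intro p p'
        obtain ⟨m, hm⟩ := hintu p₀ hp₀ p
        obtain ⟨m', hm'⟩ := hintu p₀ hp₀ p'
        refine ⟨m - m', ?_⟩
        push_cast
        rw [← hm, ← hm']
        ring
      · intro i
        rw [cR_sum]
        push_cast
        rw [hb i]
        have h5 : ∀ p, (up p - psum pg s c p) / s (l p) * (w (l p) i : ℝ) =
            (n p : ℝ) * w (l p) i + (if p ∈ 𝒬ᶜ then psum pg s c p₀ * (w (l p) i : ℝ) else 0) := by
          intro p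
          by_cases hp : p ∈ 𝒬
          · rw [if_neg fun h => Finset.mem_compl.1 h hp, add_zero, ← (hn p).1 hp]
            rcases (hle p).lt_or_eq with h | h
            · obtain ⟨h5, -⟩ := htr p hp h (l p) (hl p)
              rw [h5]
              simp
            · rw [h, sub_self, zero_div]
          · obtain ⟨h5, -⟩ := (hR.out p hp).1 (l p) (hl p)
            rw [if_pos (Finset.mem_compl.2 hp), ← (hn p).2 hp, hout p hp, h5]
            push_cast
            ring
        rw [Finset.sum_congr rfl fun p _ => h5 p, Finset.sum_add_distrib, Finset.sum_ite_mem,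
          Finset.univ_inter, ← Finset.mul_sum]
        have h6 := hR.sum l (fun p _ => hl p) i
        rw [h6]
        push_cast
        ring
    refine (min_le_left _ _).trans ?_
    by_cases hraise : ∃ p₁ ∈ 𝒬, psum pg s c p₁ < up p₁
    · obtain ⟨p₁, hp₁, hlt⟩ := hraise
      have hp₁B : p₁ ∉ B := fun h => by
        rw [hupB p₁ h] at hlt
        exact lt_irrefl _ hlt
      have hnMt : ¬ Mt q pg s w κ p₁ := fun h => hp₁B (hR.inn p₁ hp₁ h B hBB hBQ)
      have h1 : ∃ j j', pg j = some p₁ ∧ pg j' = some p₁ ∧ w j ≠ w j' := by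
        by_contra hcon
        push Not at hcon
        exact hnMt ⟨htr p₁ hp₁ hlt, fun j j' hj hj' => hcon j j' hj hj'⟩
      obtain ⟨j, j', hj, hj', hjj⟩ := h1
      have hl : ∀ j, pg j = some p₁ → ∀ p, pg (Function.update l₀ p₁ j p) = some p := by
        intro j hj p
        by_cases h : p = p₁
        · subst h
          rw [Function.update_self]
          exact hj
        · rw [Function.update_of_ne h]
          exact hl₀ p
      by_cases hz : (fun i => b i + ∑ p, n p * w (Function.update l₀ p₁ j p) i) = 0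
      · refine hval _ (hl j' hj') (Or.inr fun hz' => hjj ?_)
        funext i
        have e1 := congrFun hz i
        have e2 := congrFun hz' i
        simp only [Pi.zero_apply] at e1 e2
        have e3 : ∀ j, ∑ p, n p * w (Function.update l₀ p₁ j p) i = n p₁ * w j i +
            ∑ p ∈ Finset.univ.erase p₁, n p * w (l₀ p) i := by
          intro j
          rw [← Finset.add_sum_erase Finset.univ _ (Finset.mem_univ p₁), Function.update_self]
          congr 1
          refine Finset.sum_congr rfl fun p hp => ?_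
          rw [Function.update_of_ne (Finset.mem_erase.1 hp).1]
        rw [e3] at e1 e2
        have hn1 : n p₁ ≠ 0 := by
          intro h
          have := (hn p₁).1 hp₁
          rw [h] at this
          push_cast at this
          linarith
        have e4 : n p₁ * (w j i - w j' i) = 0 := by linear_combination e1 - e2
        have e5 := (mul_eq_zero.1 e4).resolve_left hn1
        linarith
      · exact hval _ (hl j hj) (Or.inr hz)
    · push Not at hraise
      have heq : ∀ p ∈ 𝒬, up p = psum pg s c p := fun p hp => le_antisymm (hraise p hp) (hle p)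
      by_cases hconst : ∃ p ∈ 𝒬, ∃ p' ∈ 𝒬, psum pg s c p ≠ psum pg s c p'
      · obtain ⟨p, hp, p', hp', h⟩ := hconst
        refine hval l₀ hl₀ (Or.inl ⟨p, p', ?_⟩)
        rw [heq p hp, heq p' hp']
        exact h
      · have hb0 := hne.resolve_left hconst
        push Not at hconst
        refine hval l₀ hl₀ (Or.inr fun hz => hb0 ?_)
        have hn0 : ∀ p, n p = 0 := by
          intro p
          by_cases hp : p ∈ 𝒬
          · have := (hn p).1 hp
            rw [heq p hp, sub_self] at this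
            exact_mod_cast this.symm
          · have := (hn p).2 hp
            obtain ⟨b', hb', h⟩ := (hup p).2
            rw [h, hconst b' (hBQ (hB.mat.sub B hBB p hb')) p₀ hp₀, sub_self] at this
            exact_mod_cast this.symm
        rw [← hz]
        funext i
        simp [hn0]

end Vale.Agent.P283.M647.H425
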